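import Vale.Agent.P235.K5.Cap

/-!
P235, line EX (helper489 #18675): sums over cliques with at most three vertices of arbitrary
`EdgeExact` pieces.  Literals.
-/

set_option autoImplicit false

namespace Vale.Agent.P235.K5.EX

open SimpleGraph Vale.Agent.P235 Vale.Agent.P235.H134 Vale.Agent.P235.H56 Vale.Agent.P235.K5

/-- total slack of a triple -/
def slk {V : Type} (d F : V → V → ℝ) (x y z : V) : ℝ :=
  (d x y - F x y) + (d y z - F y z) + (d x z - F x z)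

/-- the slack condition: some Gromov product of `F` is at most four times the slack -/
def SL {V : Type} (d F : V → V → ℝ) (x y z : V) : Prop :=
  (F x y + F x z - F y z) / 2 ≤ 4 * slk d F x y z ∨
  (F x y + F y z - F x z) / 2 ≤ 4 * slk d F x y z ∨
  (F x z + F y z - F x y) / 2 ≤ 4 * slk d F x y z

/-- Gromov products of `ρ` -/
noncomputable def ga (ρ : Fin 3 → Fin 3 → ℝ) (i : Fin 3) : ℝ :=
  (ρ i (i + 1) + ρ i (i + 2) - ρ (i + 1) (i + 2)) / 2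

/-- total slack at the root -/
def sr {V : Type} (d : V → V → ℝ) (R : Fin 3 → V) (ρ : Fin 3 → Fin 3 → ℝ) : ℝ :=
  (d (R 0) (R 1) - ρ 0 1) + (d (R 1) (R 2) - ρ 1 2) + (d (R 0) (R 2) - ρ 0 2)

/-- the slack condition at the root -/
def SLR {V : Type} (d : V → V → ℝ) (R : Fin 3 → V) (ρ : Fin 3 → Fin 3 → ℝ) : Prop :=
  ∃ q : Fin 3, ga ρ q ≤ 4 * sr d R ρ

/-- [E1] -/
def TriKStmt : Prop :=
  ∀ (V : Type) [Finite V] (G : SimpleGraph V) (c K : ℝ), 0 < c → 2 ≤ K → EdgeExact G c →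
    ∀ d : V → V → ℝ, IsMet d → Gen G d → ∀ R : Fin 3 → V, TriAdj G R →
      (∀ x y t, (∀ i, d x (R i) ≤ gp d R i + t) → (∀ i, d y (R i) ≤ gp d R i + t) →
        d x y ≤ K * t) →
      ∃ F : V → V → ℝ, IsL1 F ∧ (∀ i j, F (R i) (R j) = d (R i) (R j)) ∧
        (∀ x y, c / (3 * K) * d x y ≤ F x y) ∧ ∀ x y, F x y ≤ d x y

/-- the tripod distance of the depths `e` -/
def TT {V : Type} (e : Fin 3 → V → ℝ) (x y : V) : ℝ :=
  |e 0 x - e 0 y| + |e 1 x - e 1 y| + |e 2 x - e 2 y|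

/-- the shrink package: `e` depths in the three legs, `sh` the shrink, `D` the path metric of
`d - sh` -/
structure Shr {V : Type} (G : SimpleGraph V) (d : V → V → ℝ) (R : Fin 3 → V)
    (ρ : Fin 3 → Fin 3 → ℝ) (e : Fin 3 → V → ℝ) (sh D : V → V → ℝ) : Prop where
  e_nonneg : ∀ i x, 0 ≤ e i x
  e_le : ∀ i x, e i x ≤ ga ρ i
  one : ∀ i j x, i ≠ j → e i x = 0 ∨ e j x = 0
  root : ∀ i, e i (R i) = ga ρ i
  root' : ∀ i j, i ≠ j → e j (R i) = 0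
  sh_nonneg : ∀ x y, 0 ≤ sh x y
  sh_low : ∀ i j x y, i ≠ j →
    min (d (R i) (R j) - ρ i j) (1 / 4 * min (e i x) (e j y)) ≤ sh x y
  sh_up : ∀ x y, sh x y ≤ 1 / 4 * d x y
  tt_le : ∀ x y, TT e x y ≤ d x y - sh x y
  met : IsMet D
  gen : Gen G D
  le_d : ∀ x y, D x y ≤ d x y
  le_edge : ∀ x y, G.Adj x y → D x y ≤ d x y - sh x y
  tt_D : ∀ x y, TT e x y ≤ D x y
  low : ∀ x y, 3 / 4 * d x y ≤ D x y
  unshrink : ∀ i x t, 0 ≤ t → D x (R i) ≤ ga ρ i + t → d x (R i) ≤ ga ρ i + 4 / 3 * t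

/-- [E2] -/
def ShrStmt : Prop :=
  ∀ (V : Type) [Finite V] (G : SimpleGraph V) (d : V → V → ℝ), IsMet d → Gen G d →
    ∀ R : Fin 3 → V, TriAdj G R → ∀ ρ : Fin 3 → Fin 3 → ℝ, IsMet ρ →
      (∀ i j, ρ i j ≤ d (R i) (R j)) → ∃ e sh D, Shr G d R ρ e sh D

/-- [E3] the centre lemma without planarity -/
def CentreStmt : Prop :=
  ∀ (V : Type) (G : SimpleGraph V) (d : V → V → ℝ), IsMet d →
    ∀ (R : Fin 3 → V) (ρ : Fin 3 → Fin 3 → ℝ), IsMet ρ → (∀ i j, ρ i j ≤ d (R i) (R j)) →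
      SLR d R ρ → ∀ e sh D, Shr G d R ρ e sh D → ∀ d'' : V → V → ℝ, IsMet d'' →
        (∀ i j, d'' (R i) (R j) = ρ i j) → (∀ x y, d'' x y ≤ D x y) →
        (∀ x y, d'' x y = D x y ∨ ∃ i j, d'' x y = D x (R i) + ρ i j + D (R j) y) →
        ∀ x y t, (∀ i, d'' x (R i) ≤ gp d'' R i + t) → (∀ i, d'' y (R i) ≤ gp d'' R i + t) →
          d'' x y ≤ 100 * t

/-- [E5] the slack condition is preserved -/
def SLStmt : Prop :=
  ∀ (V : Type) (G : SimpleGraph V) (d : V → V → ℝ), IsMet d →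
    ∀ (R : Fin 3 → V) (ρ : Fin 3 → Fin 3 → ℝ), IsMet ρ → (∀ i j, ρ i j ≤ d (R i) (R j)) →
      SLR d R ρ → ∀ e sh D, Shr G d R ρ e sh D → ∀ F : V → V → ℝ, (∀ x y, F x y = F y x) →
        (∀ x y, G.Adj x y → F x y ≤ 1 / 8 * TT e x y + 7 / 8 * (d x y - sh x y)) →
        ∀ x y z, G.Adj x y → G.Adj y z → G.Adj x z → SL d F x y z

/-- [E4] three roots -/
def PX3Stmt : Prop :=
  ∀ (V : Type) [Finite V] (G : SimpleGraph V) (c : ℝ), 0 < c → c ≤ 1 → EdgeExact G c →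
    ∀ d : V → V → ℝ, IsMet d → Gen G d → ∀ R : Fin 3 → V, TriAdj G R →
      ∀ ρ : Fin 3 → Fin 3 → ℝ, IsMet ρ → (∀ i j, c / 10 ^ 6 * d (R i) (R j) ≤ ρ i j) →
        (∀ i j, ρ i j ≤ d (R i) (R j)) → SLR d R ρ →
        ∃ F : V → V → ℝ, IsL1 F ∧ (∀ i j, F (R i) (R j) = ρ i j) ∧
          (∀ x y, c / 10 ^ 6 * d x y ≤ F x y) ∧ (∀ x y, F x y ≤ d x y) ∧
          ∀ x y z, G.Adj x y → G.Adj y z → G.Adj x z → SL d F x y z

/-- [E6] at most two roots -/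
def PX2Stmt : Prop :=
  ∀ (V : Type) [Finite V] (G : SimpleGraph V) (c : ℝ), 0 < c → c ≤ 1 → EdgeExact G c →
    G.Connected → ∀ d : V → V → ℝ, IsMet d → Gen G d → ∀ S : Set V, S.ncard ≤ 2 →
      (∀ u ∈ S, ∀ v ∈ S, u ≠ v → G.Adj u v) → ∀ ρ : V → V → ℝ, IsL1 ρ →
        (∀ u ∈ S, ∀ v ∈ S, c / 10 ^ 6 * d u v ≤ ρ u v) → (∀ u ∈ S, ∀ v ∈ S, ρ u v ≤ d u v) →
        ∃ F : V → V → ℝ, IsL1 F ∧ (∀ u ∈ S, ∀ v ∈ S, F u v = ρ u v) ∧
          (∀ x y, c / 10 ^ 6 * d x y ≤ F x y) ∧ (∀ x y, F x y ≤ d x y) ∧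
          ∀ x y z, G.Adj x y → G.Adj y z → G.Adj x z → SL d F x y z

end Vale.Agent.P235.K5.EX
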