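import Vale.Agent.P235.K5.EX.Defs

/-!
P235, line TT (helper489): classes closed under gluing along an edge.  Literals.
-/

set_option autoImplicit false
set_option linter.all false

namespace Vale.Agent.P235.K5.EX.TwoThree

open SimpleGraph Vale.Agent.P235

/-- `F` is an `L₁` metric between `c ρ` and `ρ` -/
def Val {V : Type} (ρ : V → V → ℝ) (c : ℝ) (F : V → V → ℝ) : Prop :=
  IsL1 F ∧ (∀ x y, c * ρ x y ≤ F x y) ∧ ∀ x y, F x y ≤ ρ x y

/-- `Q` is closed under isomorphism and under gluing along an edge -/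
def GlueClosed (Q : ∀ V : Type, SimpleGraph V → Prop) : Prop :=
  (∀ (V W : Type) (G : SimpleGraph V) (H : SimpleGraph W), Nonempty (G ≃g H) → Q V G → Q W H) ∧
  ∀ (V : Type) (G : SimpleGraph V) (A B : Set V) (s t : V), G.Adj s t → A ∪ B = Set.univ →
    A ∩ B = {s, t} → (∀ a b, a ∉ B → b ∉ A → ¬ G.Adj a b) →
    Q A (G.induce A) → Q B (G.induce B) → Q V G

/-- **[T1]** gluing of two generated metrics along an edge of the same length -/
def T1Stmt : Prop :=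
  ∀ (Q : ∀ V : Type, SimpleGraph V → Prop), GlueClosed Q →
  ∀ (V W : Type) [Finite V] [Finite W] (G : SimpleGraph V) (H : SimpleGraph W)
    (ρ : V → V → ℝ) (σ : W → W → ℝ), Q V G → Q W H → IsMet ρ → Gen G ρ → IsMet σ → Gen H σ →
    ∀ (a b : V) (s t : W), G.Adj a b → H.Adj s t → ρ a b = σ s t →
    ∃ (U : Type) (_ : Finite U) (K : SimpleGraph U) (τ : U → U → ℝ) (i : V → U) (j : W → U),
      Q U K ∧ IsMet τ ∧ Gen K τ ∧ (∀ x y, G.Adj x y → K.Adj (i x) (i y)) ∧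
      (∀ x y, τ (i x) (i y) = ρ x y) ∧ (∀ x y, τ (j x) (j y) = σ x y) ∧ i a = j s ∧ i b = j t

/-- **[T2]** the `α` argument -/
def T2Stmt : Prop :=
  ∀ (Q : ∀ V : Type, SimpleGraph V → Prop), GlueClosed Q → ∀ c : ℝ, 0 < c → c ≤ 1 →
    (∀ (V : Type) [Finite V] (G : SimpleGraph V), Q V G → ∀ ρ : V → V → ℝ, IsMet ρ → Gen G ρ →
      ∃ F, Val ρ c F) →
    ∀ (V : Type) [Finite V] (G : SimpleGraph V), Q V G → ∀ ρ : V → V → ℝ, IsMet ρ → Gen G ρ →
      ∀ s t, G.Adj s t → ∀ δ : ℝ, 0 < δ → ∃ F, Val ρ c F ∧ (1 - δ) * ρ s t ≤ F s t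

/-- **[T3]** compactness -/
def T3Stmt : Prop :=
  ∀ (V : Type) [Finite V] (ρ : V → V → ℝ) (c : ℝ) (s t : V), IsMet ρ → 0 ≤ c →
    (∀ δ : ℝ, 0 < δ → ∃ F, Val ρ c F ∧ (1 - δ) * ρ s t ≤ F s t) →
    ∃ F, Val ρ c F ∧ F s t = ρ s t

/-- **[T4]** all members of a class closed under gluing along an edge are edge exact -/
def T4Stmt : Prop :=
  ∀ (Q : ∀ V : Type, SimpleGraph V → Prop), GlueClosed Q → ∀ c : ℝ, 0 < c → c ≤ 1 →
    (∀ (V : Type) [Finite V] (G : SimpleGraph V), Q V G → ∀ ρ : V → V → ℝ, IsMet ρ → Gen G ρ →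
      ∃ F, Val ρ c F) →
    ∀ (V : Type) [Finite V] (G : SimpleGraph V), Q V G → EdgeExact G c

end Vale.Agent.P235.K5.EX.TwoThree
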